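import Vale.Agent.P080.Estimates

/-!
P080: gradient estimates for semiconvex infinity-supersolutions, in every dimension.
-/

namespace Vale.Agent.Results.P080.SemiconvexEstimates

open Set Metric
open Vale.Agent.P080

theorem result (d : ℕ) :
    (∀ (Ω : Set (EuclideanSpace ℝ (Fin d))) (u : EuclideanSpace ℝ (Fin d) → ℝ) (C : ℝ),
      IsOpen Ω → 0 ≤ C →
      ((IsInfSuper u Ω ∧ ∀ x r, ball x r ⊆ Ω →
          ConvexOn ℝ (ball x r) (fun y => u y + C / 2 * ‖y‖ ^ 2)) ∨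
       (IsInfSub u Ω ∧ ∀ x r, ball x r ⊆ Ω →
          ConvexOn ℝ (ball x r) (fun y => -u y + C / 2 * ‖y‖ ^ 2))) →
      ContDiffOn ℝ 1 u Ω ∧
      (∀ (x₀ : EuclideanSpace ℝ (Fin d)) (R m M : ℝ), 0 < R → closedBall x₀ R ⊆ Ω →
        (∀ v ∈ ball x₀ R, u v ∈ Icc m M) →
        ∀ x ∈ ball x₀ (R / 4), ∀ y ∈ ball x₀ (R / 4),
          ‖gradient u x - gradient u y‖ ≤
              (12 * (M - m) / R + 2 * C * R) * (‖x - y‖ / R) ^ (1 / 3 : ℝ) ∧
          (C = 0 → ‖gradient u x - gradient u y‖ ≤ 8 * (M - m) / R ^ 2 * ‖x - y‖)) ∧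
      (C = 0 → IsPreconnected Ω → ∀ x ∈ Ω, ∀ y ∈ Ω, ‖gradient u x‖ = ‖gradient u y‖) ∧
      (C = 0 → Ω = univ → ∃ (p : EuclideanSpace ℝ (Fin d)) (c : ℝ),
        ∀ x, u x = c + inner ℝ p x)) ∧
    (∀ (x₀ x y p q : EuclideanSpace ℝ (Fin d)) (u : EuclideanSpace ℝ (Fin d) → ℝ)
      (C R m M : ℝ), 0 ≤ C → 0 < R → ContinuousOn u (closedBall x₀ R) →
      IsInfSuper u (ball x₀ R) → (∀ v ∈ ball x₀ R, u v ∈ Icc m M) →
      x ∈ ball x₀ (R / 4) → y ∈ ball x₀ (R / 4) → HasGradientAt u p x → HasGradientAt u q y →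
      (∀ v ∈ ball x₀ R, u x + inner ℝ p (v - x) - C / 2 * ‖v - x‖ ^ 2 ≤ u v) →
      (∀ v ∈ ball x₀ R, u y + inner ℝ q (v - y) - C / 2 * ‖v - y‖ ^ 2 ≤ u v) →
      ‖p - q‖ ≤ (12 * (M - m) / R + 2 * C * R) * (‖x - y‖ / R) ^ (1 / 3 : ℝ)) := by
  refine ⟨fun Ω u C hΩ hC h => ?_, fun x₀ x y p q u C R m M hC hR hc hs hbd hx hy hp hq hsx hsy =>
    (two_point_estimate hC hR hc hs hbd hx hy hp hq hsx hsy).2.1⟩
  rcases h with ⟨hs, hv⟩ | ⟨hs, hv⟩
  · refine ⟨contDiffOn_of_semiconvexOnBalls hΩ hs hv,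
      fun x₀ R m M hR hball hbd x hx y hy => ?_, ?_, ?_⟩
    · obtain ⟨h1, h2⟩ := gradient_estimate hC hΩ hs hv hR hball hbd hx hy
      exact ⟨h1, fun h0 => (h2 h0).1⟩
    · rintro rfl hconn x hx y hy
      exact norm_gradient_const hΩ hconn hs hv hx hy
    · rintro rfl rfl
      obtain ⟨p, hp⟩ := affine_of_entire hs hv
      exact ⟨p, u 0, hp⟩
  · have hs' := hs.neg
    have hv' : SemiconvexOnBalls C (fun y => -u y) Ω := hv
    have hg : ∀ x, gradient (fun y => -u y) x = -gradient u x := fun x => by simp [gradient]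
    refine ⟨?_, fun x₀ R m M hR hball hbd x hx y hy => ?_, ?_, ?_⟩
    · simpa using (contDiffOn_of_semiconvexOnBalls hΩ hs' hv').neg
    · have hbd' : ∀ v ∈ ball x₀ R, -u v ∈ Icc (-M) (-m) := fun v hv0 =>
        ⟨by linarith [(hbd v hv0).2], by linarith [(hbd v hv0).1]⟩
      obtain ⟨h1, h2⟩ := gradient_estimate hC hΩ hs' hv' hR hball hbd' hx hy
      simp only [hg, neg_sub_neg, norm_sub_rev (gradient u y) (gradient u x)] at h1 h2
      exact ⟨h1, fun h0 => (h2 h0).1⟩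
    · rintro rfl hconn x hx y hy
      simpa [hg] using norm_gradient_const hΩ hconn hs' hv' hx hy
    · rintro rfl rfl
      obtain ⟨p, hp⟩ := affine_of_entire hs' hv'
      refine ⟨-p, u 0, fun x => ?_⟩
      rw [inner_neg_left]
      linarith [hp x]

end Vale.Agent.Results.P080.SemiconvexEstimates
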